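import Vale.Agent.P038.Defs
import Vale.Agent.P038.H391.MF

/-!
# P038: the strict inequality (G) in a counterexample with the fewest arcs, and the conclusion

`N a` is the closed out-neighbourhood of `a`.  `CE N` says that no vertex satisfies Seymour's
inequality.  In a counterexample with the fewest arcs, `|N[N[X]]| + |X| < 2 |N[X]|` for each set
`X` with `N[X] ≠ X`.
-/

namespace Vale.Agent.P038.H738

open Finset

variable {V : Type*} [Fintype V] [DecidableEq V]

/-- A counterexample to Seymour's conjecture, written with closed out-neighbourhoods. -/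
structure CE (N : V → Finset V) : Prop where
  refl : ∀ a, a ∈ N a
  anti : ∀ a b, b ∈ N a → a ∈ N b → a = b
  small : ∀ v, ((N v).biUnion N).card + 2 ≤ 2 * (N v).card

omit [Fintype V] in
theorem subset_cl {N : V → Finset V} (hN : ∀ a, a ∈ N a) (X : Finset V) : X ⊆ X.biUnion N := by
  intro x hx
  exact Finset.mem_biUnion.2 ⟨x, hx, hN x⟩

/-- The inequality (G) for a counterexample with the fewest arcs. -/
theorem strictG {N : V → Finset V} (h : CE N)
    (hmin : ∀ N' : V → Finset V, CE N' → ∑ v, (N v).card ≤ ∑ v, (N' v).card)
    (X : Finset V) (hX : X.biUnion N ≠ X) :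
    ((X.biUnion N).biUnion N).card + X.card < 2 * (X.biUnion N).card := by
  by_contra hcon
  push Not at hcon
  set L : Finset V := X.biUnion N \ X with hL
  have hXsub : X ⊆ X.biUnion N := subset_cl h.refl X
  have hLne : L.Nonempty := by
    rw [Finset.nonempty_iff_ne_empty]
    intro he
    apply hX
    apply Finset.Subset.antisymm _ hXsub
    exact Finset.sdiff_eq_empty_iff_subset.1 he
  have hXL : X.biUnion N = X ∪ L := by
    rw [hL, Finset.union_sdiff_of_subset hXsub]
  have hdis : Disjoint X L := Finset.disjoint_sdiff
  -- the functional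
  set d : Finset V → ℤ := fun T => ((T.biUnion N \ X).card : ℤ) - 2 * (T.card : ℤ) with hd
  have hd0 : d ∅ = 0 := by simp [hd]
  have hcl2 : (X.biUnion N).biUnion N = X ∪ (L.biUnion N \ X) := by
    ext z
    simp only [Finset.mem_union, Finset.mem_sdiff]
    constructor
    · intro hz
      by_cases hzX : z ∈ X
      · exact Or.inl hzX
      · right
        refine ⟨?_, hzX⟩
        obtain ⟨x, hx, hxz⟩ := Finset.mem_biUnion.1 hz
        rw [hXL, Finset.mem_union] at hx
        rcases hx with hx | hx
        · have hzL : z ∈ L := by
            rw [hL, Finset.mem_sdiff]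
            exact ⟨Finset.mem_biUnion.2 ⟨x, hx, hxz⟩, hzX⟩
          exact subset_cl h.refl L hzL
        · exact Finset.mem_biUnion.2 ⟨x, hx, hxz⟩
    · rintro (hz | ⟨hz, _⟩)
      · exact subset_cl h.refl _ (hXsub hz)
      · obtain ⟨x, hx, hxz⟩ := Finset.mem_biUnion.1 hz
        refine Finset.mem_biUnion.2 ⟨x, ?_, hxz⟩
        rw [hXL]
        exact Finset.mem_union_right _ hx
  have hdL : 0 ≤ d L := by
    have h1 : ((X.biUnion N).biUnion N).card = X.card + (L.biUnion N \ X).card := by
      rw [hcl2, Finset.card_union_of_disjoint]
      exact Finset.disjoint_sdiff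
    have h2 : (X.biUnion N).card = X.card + L.card := by
      rw [hXL, Finset.card_union_of_disjoint hdis]
    simp only [hd]
    omega
  -- the minimiser
  obtain ⟨T, hT, hTmin⟩ := Finset.exists_min_image L.ssubsets d
    ⟨∅, Finset.mem_ssubsets.2 (Finset.ssubset_iff_subset_ne.2
      ⟨Finset.empty_subset _, fun he => hLne.ne_empty he.symm⟩)⟩
  rw [Finset.mem_ssubsets] at hT
  have hTd0 : d T ≤ 0 := by
    rw [← hd0]
    exact hTmin ∅ (Finset.mem_ssubsets.2 (Finset.ssubset_iff_subset_ne.2
      ⟨Finset.empty_subset _, fun he => hLne.ne_empty he.symm⟩))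
  have hTall : ∀ S ⊆ L, d T ≤ d S := by
    intro S hS
    by_cases hSL : S = L
    · rw [hSL]
      exact hTd0.trans hdL
    · exact hTmin S (Finset.mem_ssubsets.2 (Finset.ssubset_iff_subset_ne.2 ⟨hS, hSL⟩))
  -- the new family
  set O : Finset V := L \ T with hO
  have hOL : O ⊆ L := Finset.sdiff_subset
  set N' : V → Finset V := fun y => if y ∈ X then N y \ O else N y with hN'
  have hN'sub : ∀ y, N' y ⊆ N y := by
    intro y
    simp only [hN']
    split_ifs
    · exact Finset.sdiff_subset
    · exact Finset.Subset.refl _
  have hCE : CE N' := by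
    refine ⟨?_, ?_, ?_⟩
    · intro a
      simp only [hN']
      split_ifs with ha
      · rw [Finset.mem_sdiff]
        refine ⟨h.refl a, fun hao => ?_⟩
        exact Finset.disjoint_left.1 hdis ha (hOL hao)
      · exact h.refl a
    · intro a b hb ha
      exact h.anti a b (hN'sub a hb) (hN'sub b ha)
    · intro y
      by_cases hy : y ∈ X
      · have hNy : N' y = N y \ O := by simp [hN', hy]
        set Dy : Finset V := N y ∩ O with hDy
        set Ey : Finset V := Dy.biUnion N \ (T.biUnion N ∪ X) with hEy
        have hE1 : (N' y).biUnion N' ⊆ (N y).biUnion N \ Ey := by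
          intro z hz
          obtain ⟨x, hx, hxz⟩ := Finset.mem_biUnion.1 hz
          rw [Finset.mem_sdiff]
          refine ⟨Finset.mem_biUnion.2 ⟨x, hN'sub y hx, hN'sub x hxz⟩, ?_⟩
          rw [hEy, Finset.mem_sdiff]
          rintro ⟨_, hz2⟩
          apply hz2
          rw [Finset.mem_union]
          rw [hNy, Finset.mem_sdiff] at hx
          by_cases hxX : x ∈ X
          · have hx2 : N' x = N x \ O := by simp [hN', hxX]
            rw [hx2, Finset.mem_sdiff] at hxz
            have hz3 : z ∈ X ∪ L := by
              rw [← hXL]
              exact Finset.mem_biUnion.2 ⟨x, hxX, hxz.1⟩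
            rw [Finset.mem_union] at hz3
            rcases hz3 with hz3 | hz3
            · exact Or.inr hz3
            · left
              have hzT : z ∈ T := by
                by_contra hzT
                exact hxz.2 (Finset.mem_sdiff.2 ⟨hz3, hzT⟩)
              exact subset_cl h.refl T hzT
          · left
            have hxL : x ∈ L := by
              have : x ∈ X ∪ L := by
                rw [← hXL]
                exact Finset.mem_biUnion.2 ⟨y, hy, hx.1⟩
              rw [Finset.mem_union] at this
              exact this.resolve_left hxX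
            have hxT : x ∈ T := by
              by_contra hxT
              exact hx.2 (Finset.mem_sdiff.2 ⟨hxL, hxT⟩)
            exact Finset.mem_biUnion.2 ⟨x, hxT, hN'sub x hxz⟩
        have hE2 : Ey ⊆ (N y).biUnion N := by
          intro z hz
          rw [hEy, Finset.mem_sdiff] at hz
          obtain ⟨x, hx, hxz⟩ := Finset.mem_biUnion.1 hz.1
          exact Finset.mem_biUnion.2 ⟨x, (Finset.mem_inter.1 hx).1, hxz⟩
        have hE3 : ((N' y).biUnion N').card + Ey.card ≤ ((N y).biUnion N).card := by
          have h1 := Finset.card_le_card hE1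
          have h2 := Finset.card_sdiff_add_card_eq_card hE2
          omega
        have hDT : Disjoint T Dy := by
          rw [Finset.disjoint_left]
          intro z hz1 hz2
          exact (Finset.mem_sdiff.1 (Finset.mem_inter.1 hz2).2).2 hz1
        have hE4 : 2 * Dy.card ≤ Ey.card := by
          have h1 := hTall (T ∪ Dy) (Finset.union_subset hT.1 ((Finset.inter_subset_right).trans hOL))
          simp only [hd] at h1
          rw [Finset.card_union_of_disjoint hDT] at h1
          have h2 : (T ∪ Dy).biUnion N \ X = (T.biUnion N \ X) ∪ Ey := by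
            ext z
            simp only [hEy, Finset.mem_union, Finset.mem_sdiff, Finset.union_biUnion]
            tauto
          have h3 : Disjoint (T.biUnion N \ X) Ey := by
            rw [Finset.disjoint_left]
            intro z hz1 hz2
            exact (Finset.mem_sdiff.1 hz2).2 (Finset.mem_union_left _ (Finset.mem_sdiff.1 hz1).1)
          rw [h2, Finset.card_union_of_disjoint h3] at h1
          push_cast at h1
          omega
        have hE5 : (N' y).card + Dy.card = (N y).card := by
          rw [hNy, hDy]
          exact Finset.card_sdiff_add_card_inter (N y) O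
        have h6 := h.small y
        omega
      · have hNy : N' y = N y := by simp [hN', hy]
        have h1 : (N' y).biUnion N' ⊆ (N y).biUnion N := by
          intro z hz
          obtain ⟨x, hx, hxz⟩ := Finset.mem_biUnion.1 hz
          exact Finset.mem_biUnion.2 ⟨x, hN'sub y hx, hN'sub x hxz⟩
        have h2 := Finset.card_le_card h1
        have h3 := h.small y
        rw [hNy]
        rw [hNy] at h2
        omega
  have h7 := hmin N' hCE
  obtain ⟨z, hzL, hzT⟩ := Finset.exists_of_ssubset hT
  have hzO : z ∈ O := Finset.mem_sdiff.2 ⟨hzL, hzT⟩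
  have hzX := (Finset.mem_sdiff.1 hzL).1
  obtain ⟨y, hy, hyz⟩ := Finset.mem_biUnion.1 hzX
  have h8 : ∑ v, (N' v).card < ∑ v, (N v).card := by
    apply Finset.sum_lt_sum
    · intro v _
      exact Finset.card_le_card (hN'sub v)
    · refine ⟨y, Finset.mem_univ y, ?_⟩
      apply Finset.card_lt_card
      rw [Finset.ssubset_iff_of_subset (hN'sub y)]
      refine ⟨z, hyz, ?_⟩
      simp [hN', hy, hzO]
  omega

/-- There is no counterexample. -/
theorem no_CE [Nonempty V] (N : V → Finset V) : ¬ CE N := by
  classical
  intro h0
  obtain ⟨N, hN, hmin⟩ := Finset.exists_min_image (univ.filter (fun N : V → Finset V => CE N))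
    (fun N => ∑ v, (N v).card) ⟨N, by simp [h0]⟩
  simp only [Finset.mem_filter, Finset.mem_univ, true_and] at hN hmin
  refine H391.no_strict N hN.refl (fun a b => hN.anti a b) (fun _ => (1 : ℝ)) (fun _ => one_pos)
    ?_ ?_
  · intro a
    by_contra hcon
    push Not at hcon
    have h1 : N a = {a} := by
      ext b
      rw [Finset.mem_singleton]
      exact ⟨fun hb => hcon b hb, fun hb => hb ▸ hN.refl a⟩
    have h2 := hN.small a
    rw [h1, Finset.singleton_biUnion, h1] at h2
    simp at h2
  · intro X hX
    have h1 := strictG hN hmin X hX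
    have hW : ∀ S : Finset V, H391.W (fun _ => (1 : ℝ)) S = (S.card : ℝ) := by
      intro S
      simp [H391.W]
    unfold H391.hh
    rw [hW, hW, hW]
    have h2 : ((H391.nb N (H391.nb N X)).card : ℝ) + X.card < 2 * (H391.nb N X).card := by
      exact_mod_cast h1
    linarith

end Vale.Agent.P038.H738

namespace Vale.Agent.P038.H738

open Finset

universe u

/-- Seymour's second neighbourhood conjecture. -/
theorem snc {V : Type u} [Fintype V] [Nonempty V] (D : OGraph V) :
    ∃ v, (N1 D v).card ≤ (N2 D v).card := by
  classical
  by_contra hcon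
  push Not at hcon
  have hself : ∀ v, v ∉ N1 D v := fun v hv => D.loopless v (mem_N1.1 hv)
  apply no_CE (fun v => insert v (N1 D v))
  refine ⟨fun a => Finset.mem_insert_self _ _, ?_, ?_⟩
  · intro a b hb ha
    rw [Finset.mem_insert, mem_N1] at hb ha
    rcases hb with hb | hb
    · exact hb.symm
    · rcases ha with ha | ha
      · exact ha
      · exact absurd ha (D.asymm a b hb)
  · intro v
    have h1 : (insert v (N1 D v)).biUnion (fun v => insert v (N1 D v)) ⊆
        insert v (N1 D v ∪ N2 D v) := by
      intro z hz
      obtain ⟨x, hx, hxz⟩ := Finset.mem_biUnion.1 hz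
      rw [Finset.mem_insert, mem_N1] at hx hxz
      rw [Finset.mem_insert, Finset.mem_union, mem_N1, mem_N2]
      by_cases hzv : z = v
      · exact Or.inl hzv
      · right
        by_cases hvz : D.arc v z
        · exact Or.inl hvz
        · right
          refine ⟨hzv, hvz, ?_⟩
          rcases hx with hx | hx
          · subst hx
            rcases hxz with hxz | hxz
            · exact absurd hxz hzv
            · exact absurd hxz hvz
          · rcases hxz with hxz | hxz
            · subst hxz
              exact absurd hx hvz
            · exact ⟨x, hx, hxz⟩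
    have h2 := Finset.card_le_card h1
    have h3 : (insert v (N1 D v ∪ N2 D v)).card ≤ (N1 D v).card + (N2 D v).card + 1 := by
      refine (Finset.card_insert_le _ _).trans ?_
      have := Finset.card_union_le (N1 D v) (N2 D v)
      omega
    have h4 : (insert v (N1 D v)).card = (N1 D v).card + 1 :=
      Finset.card_insert_of_notMem (hself v)
    have h5 := hcon v
    omega

end Vale.Agent.P038.H738
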